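import Vale.Agent.P251Z.JWMain
import Vale.Agent.P251.X.KExists

/-!
# P251: the weak chromatic splitting conjecture fails at `n = p = 5`, with `L_4 = L_{E(4)}`

There is a stable homotopy category with a suspension spectrum functor; in each of them Bousfield
localizations exist, a Morava K-theory `K(5)` at `5` exists, and for every `K(5)` and every
Johnson-Wilson spectrum `E(4)` the canonical map `L_{E(4)} S_p ⟶ L_{E(4)} L_{K(5)} S_p` has no
retraction.
-/

open CategoryTheory MonoidalCategory

namespace Vale.Agent.Results.P251.AJohnsonWilson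

open Vale.Agent.P251 Vale.Agent.P251.St Vale.Agent.P251.St.SHCat Vale.Agent.P251Z

theorem result : (∃ T : SHCat, Nonempty (Susp T)) ∧ ∀ (T : SHCat) (S : Susp T),
    (∀ E X : T.C, ∃ (Y : T.C) (f : Hom X Y), IsLoc E f) ∧
    (∃ K : RingSp T, IsMorava S K 5 5) ∧ NoRetractionJW S 5 5 := by
  refine ⟨nonempty_susp, fun T S => ⟨exists_isLoc T, ?_, noRetractionJW S⟩⟩
  have := locallySmall_self.{0} T.C
  have : Fact (Nat.Prime 5) := ⟨by norm_num⟩
  obtain ⟨K, h⟩ := exists_morava 5 (by norm_num) T S
    (fun n => X.exists_isMorava S.toSpaceFunctor (by norm_num) n)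
  exact ⟨K 5, h 5⟩

end Vale.Agent.Results.P251.AJohnsonWilson
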